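import Vale.Agent.P092.H306.Pu1
import Vale.Agent.P092.H43.PPur

/-!
P092, TEAM P, stages 2 and 3 (helper99): purity and the permutation of the two extreme types, for
any source group `S` (two walls), any target group `H` (two compact `H`-spaces), after helper306's
`ropp_fam`, `excl_type`, `pur_of` for `Sp_4`.
-/

set_option linter.all false

open scoped InnerProductSpace ENNReal
open Filter Topology ContinuousLinearMap MeasureTheory TopologicalSpace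

namespace Vale.Agent.P092.H99.P2

open Vale.Agent.P092.SD (Ms UC)
open Vale.Agent.P092.RC (Cm TRN Pic)
open Vale.Agent.P092.H790.CT (PicL)
open Vale.Agent.P092.H790.CTA (ORBG SIZEG)
open Vale.Agent.P092.SP (UL)
open Vale.Agent.P092.H306.Pu (ropp)
open Vale.Agent.P092.H43.PPur (Fam Prx excl)

section shell

variable {Y : Type} [TopologicalSpace Y] [CompactSpace Y] [T2Space Y]

/-- a compact set in open position to another one has a neighbourhood with closure in the same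
position -/
theorem exists_shell {O : Y → Y → Prop} (hO : IsOpen {p : Y × Y | O p.1 p.2}) {K₁ K₂ : Set Y}
    (h1 : IsClosed K₁) (h2 : IsClosed K₂) (h : ∀ x ∈ K₁, ∀ y ∈ K₂, O x y) :
    ∃ A : Set Y, IsOpen A ∧ K₁ ⊆ A ∧ ∀ x ∈ closure A, ∀ y ∈ K₂, O x y := by
  obtain ⟨U, V, hU, hV, hKU, hKV, hUV⟩ := generalized_tube_lemma h1.isCompact h2.isCompact hO
    (fun p hp => h p.1 hp.1 p.2 hp.2)
  obtain ⟨A, hA, hKA, hAU⟩ := normal_exists_closure_subset h1 hU hKU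
  exact ⟨A, hA, hKA, fun x hx y hy => hUV (Set.mk_mem_prod (hAU hx) (hKV hy))⟩

end shell

section defs

variable {S E Γ H K X Y : Type} [Group S] [Group E] [Group Γ] [Group H] [NormedAddCommGroup K]
  [InnerProductSpace ℂ K] [CompleteSpace K] [MulAction S X] [TopologicalSpace Y] [CompactSpace Y]
  [MulAction H Y]

/-- the capacity of the target, size `sz`: few elements of `Γ` near the wall with a given size move
a point into a set in position `O` to the attracting set -/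
def Cap (q : Γ → H) (sz : Γ → ℝ) (NA : ℝ → ℝ → Set Y → Set Γ) (O : Y → Y → Prop) : Prop :=
  ∀ A B : Set Y, IsOpen A → IsClosed B → (∀ x ∈ closure A, ∀ y ∈ B, O x y) →
    ∀ R : ℝ, ∃ T > 0, ∃ C : ℝ, ∀ J : ℝ, 0 ≤ J → ∀ S : Finset Γ,
      (∀ γ ∈ S, γ ∈ NA R T A ∧ Real.log (sz γ) ≤ J) → ∀ y, (∀ γ ∈ S, q γ • y ∈ B) →
        (S.card : ℝ) ≤ C * (1 + J)

/-- one family of limits, any source group -/
structure UF (𝒰 : Ultrafilter ℕ) (b : S) (v0 : X) (ι : S →* E) (π : E →* (K →L[ℂ] K))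
    (lam : Γ →* (K →L[ℂ] K)) (W : Set (K →L[ℂ] K)) (m : Set Γ → (K →L[ℂ] K)) (q : Γ → H)
    (NA : ℝ → ℝ → Set Y → Set Γ) (U : X → (C(Y, ℂ) →ₗ[ℂ] (K →L[ℂ] K))) (p : ℝ) : Prop where
  ul : ∀ v, UL (U v) p
  cm : ∀ v f, Cm W (U v f)
  cov : ∀ γ v (f f' : C(Y, ℂ)), (∀ y, f' (q γ • y) = f y) →
    lam γ * U v f * lam γ⁻¹ = U v f'
  pcov : ∀ g v f, π (ι g) * U v f * π (ι g)⁻¹ = U (g • v) f
  dom : ∀ (g : S) (u : C(Y, ℂ)) (A : Set Y), IsOpen A → tsupport u ⊆ A → ∀ ζ : K,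
    ∀ ε > 0, ∃ R : ℝ, ∀ T > 0, ∀ᶠ t : ℕ in (𝒰 : Filter ℕ),
      ‖U (g • v0) u ζ‖ ≤ ‖u‖ * ‖m (NA R T A) (π (ι (g * b ^ t * g⁻¹))⁻¹ ζ)‖ + ε

end defs

section main

variable {S E Γ H K V X X' Y : Type} [Group S] [Group E] [TopologicalSpace E]
  [IsTopologicalGroup E] [Group Γ] [Group H] [NormedAddCommGroup K] [InnerProductSpace ℂ K]
  [CompleteSpace K] [MulAction S X] [MulAction S X'] [TopologicalSpace Y] [CompactSpace Y]
  [T2Space Y] [MulAction H Y] [ContinuousConstSMul H Y] [NormedAddCommGroup V] [ProperSpace V]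
  [MeasurableSpace V] [BorelSpace V] {μ : Measure V} [IsFiniteMeasureOnCompacts μ]
  [μ.IsOpenPosMeasure] {𝒰 : Ultrafilter ℕ} {ι : S →* E} {π : E →* (K →L[ℂ] K)}
  {lam : Γ →* (K →L[ℂ] K)} {W : Set (K →L[ℂ] K)} {Ω : K} {m : Set Γ → (K →L[ℂ] K)} {q : Γ → H}
  {sz : Γ → ℝ}

/-- **(R) for opposite sets**, any groups: `fix` = the wall of `c` and its root group fix `l`. -/
theorem ropp_gen (h𝒰 : (𝒰 : Filter ℕ) ≤ atTop) (hP : Pic π lam W Ω) (hM : Ms lam W Ω m)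
    (hUC : UC π W Ω m) {b : S} {n : V → S} (hnc : Tendsto (fun s => ι (n s)) (𝓝 0) (𝓝 1))
    (hORB : ∃ ρ : ℝ, 0 < ρ ∧ ρ < 1 ∧ ORBG μ (ι b) (fun s => ι (n s)) ρ π lam W Ω)
    (hsz0 : ∀ γ, 0 < sz γ) (hsz : ∀ γ, ∃ d : ℝ, 1 ≤ d ∧ ∀ y, sz (γ * y) ≤ d * sz y)
    (hS : SIZEG (ι b) π Ω m sz) {v0 : X} {b' : S} {v0' : X'} {NA : ℝ → ℝ → Set Y → Set Γ}
    {U : X → (C(Y, ℂ) →ₗ[ℂ] (K →L[ℂ] K))} {p : ℝ} {F : X' → (C(Y, ℂ) →ₗ[ℂ] (K →L[ℂ] K))}
    {p' : ℝ} (hU : UF 𝒰 b v0 ι π lam W m q NA U p) (hF : UF 𝒰 b' v0' ι π lam W m q NA F p')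
    {O : Y → Y → Prop} (hO : IsOpen {p : Y × Y | O p.1 p.2}) (hcap : Cap q sz NA O) (c : X)
    (l : X') (fix : ∃ g : S, g • v0 = c ∧ (g * b * g⁻¹) • l = l ∧ ∀ s, (g * n s * g⁻¹) • l = l)
    (u h : C(Y, ℂ)) (huh : ∀ x ∈ tsupport u, ∀ y ∈ tsupport h, O x y) :
    U c u * F l h = 0 := by
  obtain ⟨g, hg, hg1, hg2⟩ := fix
  obtain ⟨A, hA, huA, hAO⟩ := exists_shell hO (isClosed_tsupport u) (isClosed_tsupport h) huh
  obtain ⟨ρ, hρ, hρ1, hORB⟩ := hORB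
  have hfix : ∀ e : S, e • l = l → Commute (F l h) (π (ι e)) := by
    intro e he
    have h1 := hF.pcov e l h
    rw [he] at h1
    have h2 : π (ι e)⁻¹ * π (ι e) = 1 := by rw [← map_mul, inv_mul_cancel, map_one]
    change F l h * π (ι e) = π (ι e) * F l h
    calc F l h * π (ι e) = (π (ι e) * F l h * π (ι e)⁻¹) * π (ι e) := by rw [h1]
      _ = π (ι e) * F l h * (π (ι e)⁻¹ * π (ι e)) := by simp only [mul_assoc]
      _ = π (ι e) * F l h := by rw [h2, mul_one]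
  have key : U (g • v0) u * F l h = 0 := by
    refine ropp (μ := μ) (V := V) (b := ι b) (n := fun s => ι (n s)) (g := ι g)
      (sz := sz) (q := q) (𝒰 := (𝒰 : Filter ℕ)) (NA := fun R T => NA R T A)
      (c := ‖u‖) (d := 1)
      (PicL.of_pic hP) hM hUC hρ hρ1 hnc hORB hsz0 hsz hS
      h𝒰 (hF.ul l) (hF.cm l h) (fun γ f f' hff => hF.cov γ l f f' hff) ?_ ?_ ?_ ?_
    · rw [← map_mul, ← map_inv, ← map_mul]
      exact hfix _ hg1
    · intro s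
      rw [← map_mul, ← map_inv, ← map_mul]
      exact hfix _ (hg2 s)
    · intro ζ ε hε
      obtain ⟨R, hR⟩ := hU.dom g u A hA huA ζ ε hε
      refine ⟨R, fun T hT => (hR T hT).mono fun t ht => ?_⟩
      rw [← map_pow, ← map_mul, ← map_inv, ← map_mul]
      exact ht
    · intro R
      obtain ⟨T, hT, C, hC⟩ := hcap A (tsupport h) hA (isClosed_tsupport h) hAO R
      refine ⟨T, hT, C, fun J hJ S hS y hy => ?_⟩
      rw [pow_one]
      exact hC J hJ S hS y hy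
  rw [hg] at key
  exact key

omit [T2Space Y] [ContinuousConstSMul H Y] [TopologicalSpace E] [IsTopologicalGroup E] in
theorem UF.fam {b : S} {v0 : X} {NA : ℝ → ℝ → Set Y → Set Γ}
    {U : X → (C(Y, ℂ) →ₗ[ℂ] (K →L[ℂ] K))} {p : ℝ} (h : UF 𝒰 b v0 ι π lam W m q NA U p)
    (hsur : Function.Surjective ι) [TopologicalSpace E] : Fam π lam W q p U where
  ul := h.ul
  cm := h.cm
  cov := fun γ z f f' hff => h.cov γ z f f' hff
  pst e z := by
    obtain ⟨g, rfl⟩ := hsur e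
    exact ⟨g • z, fun f => h.pcov g z f⟩

/-- a target type occurs at one of the two source types only -/
theorem excl_gen (h𝒰 : (𝒰 : Filter ℕ) ≤ atTop) (hP : Pic π lam W Ω) (hM : Ms lam W Ω m)
    (hUC : UC π W Ω m) (hsur : Function.Surjective ι) {b : S} {n : V → S}
    (hnc : Tendsto (fun s => ι (n s)) (𝓝 0) (𝓝 1))
    (hORB : ∃ ρ : ℝ, 0 < ρ ∧ ρ < 1 ∧ ORBG μ (ι b) (fun s => ι (n s)) ρ π lam W Ω)
    (hsz0 : ∀ γ, 0 < sz γ) (hsz : ∀ γ, ∃ d : ℝ, 1 ≤ d ∧ ∀ y, sz (γ * y) ≤ d * sz y)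
    (hS : SIZEG (ι b) π Ω m sz) {v0 : X} {b' : S} {v0' : X'} {NA : ℝ → ℝ → Set Y → Set Γ}
    {U : X → (C(Y, ℂ) →ₗ[ℂ] (K →L[ℂ] K))} {p : ℝ} {F : X' → (C(Y, ℂ) →ₗ[ℂ] (K →L[ℂ] K))}
    {p' : ℝ} (hU : UF 𝒰 b v0 ι π lam W m q NA U p) (hF : UF 𝒰 b' v0' ι π lam W m q NA F p')
    {O : Y → Y → Prop} (hO : IsOpen {p : Y × Y | O p.1 p.2}) (hcap : Cap q sz NA O)
    (fix : ∀ (c : X) (l : X'), ∃ g : S, g • v0 = c ∧ (g * b * g⁻¹) • l = l ∧
      ∀ s, (g * n s * g⁻¹) • l = l)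
    {Y' : Type} {Op : Y' → Set Y} (hx : Prx q Op) {x y : Y} (hxy : O x y) : p = 0 ∨ p' = 0 := by
  obtain ⟨U₁, U₂, h1, h2, hx1, hy2, h3⟩ := isOpen_prod_iff.1 hO x y hxy
  haveI : Nonempty X := ⟨v0⟩
  haveI : Nonempty X' := ⟨v0'⟩
  refine excl (U := U₁) (U' := U₂) hP (hU.fam hsur) (hF.fam hsur) hx h1 ⟨x, hx1⟩ h2 ⟨y, hy2⟩ ?_
  intro c l f g hf hg
  exact ropp_gen (μ := μ) h𝒰 hP hM hUC hnc hORB hsz0 hsz hS hU hF hO hcap c l (fix c l) f g
    fun s hs t ht => h3 (Set.mk_mem_prod (hf hs) (hg ht))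

end main

section arith

/-- the permutation of the types -/
theorem perm_of {p11 p12 p21 p22 : ℝ} (s1 : p11 + p12 = 1) (s2 : p21 + p22 = 1)
    (e1 : p11 = 0 ∨ p21 = 0) (e2 : p12 = 0 ∨ p22 = 0) :
    (p11 = 1 ∧ p22 = 1) ∨ (p12 = 1 ∧ p21 = 1) := by
  rcases e1 with e | e
  · right
    have h12 : p12 = 1 := by rw [e, zero_add] at s1; exact s1
    have h22 : p22 = 0 := by
      rcases e2 with e' | e'
      · rw [e'] at h12
        exact absurd h12 zero_ne_one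
      · exact e'
    refine ⟨h12, ?_⟩
    rw [h22, add_zero] at s2
    exact s2
  · left
    have h22 : p22 = 1 := by rw [e, zero_add] at s2; exact s2
    have h12 : p12 = 0 := by
      rcases e2 with e' | e'
      · exact e'
      · rw [e'] at h22
        exact absurd h22 zero_ne_one
    refine ⟨?_, h22⟩
    rw [h12, add_zero] at s1
    exact s1

end arith

end Vale.Agent.P092.H99.P2
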